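import Vale.Agent.Lib.P344.H27.Defs

/-!
A generic potential lemma in the style of Morgenstern for linear circuits.
-/

namespace Vale.Agent.Lib.P344.H27

theorem values_nil (n : ℕ) : values n [] = inputs n := rfl

theorem values_snoc (n : ℕ) (gs : List Gate) (g : Gate) :
    values n (gs ++ [g]) = values n gs ++ [g.val (values n gs)] := by
  simp [values, List.foldl_append]

theorem getD_mem_or_zero {n : ℕ} (vs : List (Fin n → ℂ)) (i : ℕ) :
    vs.getD i 0 ∈ vs ∨ vs.getD i 0 = 0 := by
  by_cases h : i < vs.length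
  · left
    rw [List.getD_eq_getElem?_getD, List.getElem?_eq_getElem h]
    simp
  · right
    rw [List.getD_eq_getElem?_getD, List.getElem?_eq_none (by omega)]
    rfl

/-- Multiplicative cost used in the potential argument (no conjugation). -/
noncomputable def mcost (c : ℝ) : Gate → ℝ
  | Gate.add _ _ => 2
  | Gate.sub _ _ => 2
  | Gate.scal l _ => if ‖l‖ ≤ c then max 1 ‖l‖ else 1

/-- A scalar gate with multiplier of norm `> c`. -/
def IsHelp (c : ℝ) : Gate → Prop
  | Gate.add _ _ => False
  | Gate.sub _ _ => False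
  | Gate.scal l _ => ¬ ‖l‖ ≤ c

theorem one_le_mcost (c : ℝ) (g : Gate) : 1 ≤ mcost c g := by
  cases g with
  | add i j => simp [mcost]
  | sub i j => simp [mcost]
  | scal l i =>
    simp only [mcost]
    split_ifs
    · exact le_max_left _ _
    · exact le_refl _

section Potential

variable {n q : ℕ}

/-- Hypotheses on the potential function: additive and homogeneous in each argument,
vanishing on tuples with a repeated argument. -/
structure IsAlt (D : (Fin q → (Fin n → ℂ)) → ℂ) : Prop where
  add : ∀ (g : Fin q → (Fin n → ℂ)) (a : Fin q) (u v : Fin n → ℂ),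
    D (Function.update g a (u + v)) = D (Function.update g a u) + D (Function.update g a v)
  smul : ∀ (g : Fin q → (Fin n → ℂ)) (a : Fin q) (c : ℂ) (u : Fin n → ℂ),
    D (Function.update g a (c • u)) = c * D (Function.update g a u)
  alt : ∀ (g : Fin q → (Fin n → ℂ)) (a b : Fin q), a ≠ b → g a = g b → D g = 0

theorem IsAlt.sub {D : (Fin q → (Fin n → ℂ)) → ℂ} (hD : IsAlt D)
    (g : Fin q → (Fin n → ℂ)) (a : Fin q) (u v : Fin n → ℂ) :
    D (Function.update g a (u - v)) = D (Function.update g a u) - D (Function.update g a v) := by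
  have h : u - v = u + (-1 : ℂ) • v := by
    rw [neg_one_smul, sub_eq_add_neg]
  rw [h, hD.add, hD.smul]
  ring

theorem IsAlt.zero {D : (Fin q → (Fin n → ℂ)) → ℂ} (hD : IsAlt D)
    (g : Fin q → (Fin n → ℂ)) (a : Fin q) (h : g a = 0) : D g = 0 := by
  have h1 : g = Function.update g a ((0 : ℂ) • (0 : Fin n → ℂ)) := by
    rw [zero_smul, ← h, Function.update_eq_self]
  rw [h1, hD.smul, zero_mul]

/-- `Bdd D vs B`: the potential of every tuple of forms taken from `vs` (or `0`) is at most `B`. -/
def Bdd (D : (Fin q → (Fin n → ℂ)) → ℂ) (vs : List (Fin n → ℂ)) (B : ℝ) : Prop :=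
  ∀ g : Fin q → (Fin n → ℂ), (∀ a, g a ∈ vs ∨ g a = 0) → ‖D g‖ ≤ B

theorem Bdd.nonneg {D : (Fin q → (Fin n → ℂ)) → ℂ} {vs : List (Fin n → ℂ)} {B : ℝ}
    (h : Bdd D vs B) : 0 ≤ B :=
  le_trans (norm_nonneg _) (h (fun _ => 0) (fun _ => Or.inr rfl))

/-- Key case analysis: a tuple from `vs ++ [w]` either avoids `w`, or has `w` twice,
or has `w` exactly once. -/
theorem bdd_snoc_aux {D : (Fin q → (Fin n → ℂ)) → ℂ} (hD : IsAlt D)
    {vs : List (Fin n → ℂ)} {B B' : ℝ} (hB : Bdd D vs B) (hBB' : B ≤ B') (w : Fin n → ℂ)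
    (hw : ∀ (g : Fin q → (Fin n → ℂ)) (a : Fin q),
      (∀ b, b ≠ a → (g b ∈ vs ∨ g b = 0)) → ‖D (Function.update g a w)‖ ≤ B') :
    Bdd D (vs ++ [w]) B' := by
  intro g hg
  by_cases h : ∃ a, g a = w
  · obtain ⟨a, ha⟩ := h
    by_cases h2 : ∃ b, b ≠ a ∧ g b = w
    · obtain ⟨b, hba, hb⟩ := h2
      rw [hD.alt g a b (Ne.symm hba) (ha.trans hb.symm)]
      simp only [norm_zero]
      exact le_trans hB.nonneg hBB'
    · push Not at h2
      have h3 : ∀ b, b ≠ a → (g b ∈ vs ∨ g b = 0) := by
        intro b hb
        rcases hg b with h4 | h4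
        · rw [List.mem_append, List.mem_singleton] at h4
          rcases h4 with h4 | h4
          · exact Or.inl h4
          · exact absurd h4 (h2 b hb)
        · exact Or.inr h4
      have h5 : g = Function.update g a w := by
        rw [← ha, Function.update_eq_self]
      rw [h5]
      exact hw g a h3
  · push Not at h
    refine le_trans (hB g ?_) hBB'
    intro a
    rcases hg a with h4 | h4
    · rw [List.mem_append, List.mem_singleton] at h4
      rcases h4 with h4 | h4
      · exact Or.inl h4
      · exact absurd h4 (h a)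
    · exact Or.inr h4

theorem update_mem {vs : List (Fin n → ℂ)} (g : Fin q → (Fin n → ℂ)) (a : Fin q)
    (u : Fin n → ℂ) (hu : u ∈ vs ∨ u = 0) (h : ∀ b, b ≠ a → (g b ∈ vs ∨ g b = 0)) :
    ∀ b, Function.update g a u b ∈ vs ∨ Function.update g a u b = 0 := by
  intro b
  by_cases hb : b = a
  · subst hb
    rw [Function.update_self]
    exact hu
  · rw [Function.update_of_ne hb]
    exact h b hb

/-- One gate multiplies the bound on the potential by at most its multiplicative cost,
provided the outputs of the gates with large multipliers are annihilated by `D`. -/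
theorem bdd_gate {D : (Fin q → (Fin n → ℂ)) → ℂ} (hD : IsAlt D) (c : ℝ)
    {vs : List (Fin n → ℂ)} {B : ℝ} (hB : Bdd D vs B) (g : Gate)
    (hhelp : IsHelp c g → ∀ (f : Fin q → (Fin n → ℂ)) (a : Fin q), f a = g.val vs → D f = 0) :
    Bdd D (vs ++ [g.val vs]) (B * mcost c g) := by
  have hB0 := hB.nonneg
  have hle : B ≤ B * mcost c g := le_mul_of_one_le_right hB0 (one_le_mcost c g)
  apply bdd_snoc_aux hD hB hle
  intro f a hf
  cases g with
  | add i j =>
    simp only [Gate.val, mcost]
    rw [hD.add]
    have h1 := hB _ (update_mem f a _ (getD_mem_or_zero vs i) hf)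
    have h2 := hB _ (update_mem f a _ (getD_mem_or_zero vs j) hf)
    calc ‖D (Function.update f a (vs.getD i 0)) + D (Function.update f a (vs.getD j 0))‖
        ≤ ‖D (Function.update f a (vs.getD i 0))‖ + ‖D (Function.update f a (vs.getD j 0))‖ :=
          norm_add_le _ _
      _ ≤ B + B := add_le_add h1 h2
      _ = B * 2 := by ring
  | sub i j =>
    simp only [Gate.val, mcost]
    rw [hD.sub]
    have h1 := hB _ (update_mem f a _ (getD_mem_or_zero vs i) hf)
    have h2 := hB _ (update_mem f a _ (getD_mem_or_zero vs j) hf)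
    calc ‖D (Function.update f a (vs.getD i 0)) - D (Function.update f a (vs.getD j 0))‖
        ≤ ‖D (Function.update f a (vs.getD i 0))‖ + ‖D (Function.update f a (vs.getD j 0))‖ :=
          norm_sub_le _ _
      _ ≤ B + B := add_le_add h1 h2
      _ = B * 2 := by ring
  | scal l i =>
    by_cases hl : ‖l‖ ≤ c
    · simp only [Gate.val, mcost, if_pos hl]
      rw [hD.smul, norm_mul]
      have h1 := hB _ (update_mem f a _ (getD_mem_or_zero vs i) hf)
      calc ‖l‖ * ‖D (Function.update f a (vs.getD i 0))‖
          ≤ max 1 ‖l‖ * B :=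
            mul_le_mul (le_max_right _ _) h1 (norm_nonneg _) (le_trans zero_le_one (le_max_left _ _))
        _ = B * max 1 ‖l‖ := by ring
    · have h0 : D (Function.update f a ((Gate.scal l i).val vs)) = 0 :=
        hhelp hl _ a (by rw [Function.update_self])
      rw [h0, norm_zero]
      exact mul_nonneg hB0 (le_trans zero_le_one (one_le_mcost c _))

/-- The potential bound for a whole circuit. -/
theorem bdd_values {D : (Fin q → (Fin n → ℂ)) → ℂ} (hD : IsAlt D) (c : ℝ) {B : ℝ}
    (hB : Bdd D (inputs n) B) (gs : List Gate)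
    (hhelp : ∀ (gs₁ : List Gate) (g : Gate), (gs₁ ++ [g]) <+: gs → IsHelp c g →
      ∀ (f : Fin q → (Fin n → ℂ)) (a : Fin q), f a = g.val (values n gs₁) → D f = 0) :
    Bdd D (values n gs) (B * (gs.map (mcost c)).prod) := by
  induction gs using List.reverseRecOn with
  | nil => simpa [values_nil] using hB
  | append_singleton gs g ih =>
    have ih' := ih (fun gs₁ g₁ h1 h2 => hhelp gs₁ g₁ (h1.trans (List.prefix_append gs [g])) h2)
    have h3 := bdd_gate hD c ih' g (fun h2 => hhelp gs g (List.prefix_refl _) h2)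
    rw [values_snoc, List.map_append, List.prod_append]
    simpa [mul_assoc] using h3

end Potential

end Vale.Agent.Lib.P344.H27
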