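import Mathlib

/-!
Linear circuits over the complex numbers with gates `u + v`, `u - v`, `c • u`:
the definitions used in the statements about the discrete Fourier transform.
-/

namespace Vale.Agent.Lib.P344.H27

/-- A gate of a linear circuit.  Operands are given by their position in the list of
previously computed values: the `n` inputs come first, then the outputs of the earlier gates,
in order.  A position outside that list denotes the constant `0`. -/
inductive Gate : Type
  | add (i j : ℕ) : Gate
  | sub (i j : ℕ) : Gate
  | scal (c : ℂ) (i : ℕ) : Gate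

/-- The linear form computed by a gate, given the list `vs` of previously computed forms.
A linear form in the inputs `x_0, ..., x_(n-1)` is represented by its coefficient vector. -/
noncomputable def Gate.val {n : ℕ} (vs : List (Fin n → ℂ)) : Gate → (Fin n → ℂ)
  | Gate.add i j => vs.getD i 0 + vs.getD j 0
  | Gate.sub i j => vs.getD i 0 - vs.getD j 0
  | Gate.scal c i => c • vs.getD i 0

/-- The inputs `x_0, ..., x_(n-1)` as linear forms. -/
noncomputable def inputs (n : ℕ) : List (Fin n → ℂ) :=
  List.ofFn (fun k : Fin n => (Pi.single k 1 : Fin n → ℂ))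

/-- All linear forms computed by the circuit `gs` on `n` inputs:
the inputs followed by the gate outputs, in order. -/
noncomputable def values (n : ℕ) (gs : List Gate) : List (Fin n → ℂ) :=
  gs.foldl (fun vs g => vs ++ [g.val vs]) (inputs n)

/-- The circuit `gs` computes the unnormalized discrete Fourier transform `F_n`:
every row `(ζ^(j k))_k` of `F_n`, `ζ = exp(2 π i / n)`, is one of the computed forms. -/
def ComputesDFT (n : ℕ) (gs : List Gate) : Prop :=
  ∀ j : Fin n, (fun k : Fin n =>
    Complex.exp (2 * Real.pi * Complex.I / n) ^ ((j : ℕ) * (k : ℕ))) ∈ values n gs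

/-- Additive cost of a gate, relative to a ring endomorphism `σ` of `ℂ` and a threshold `c`:
an addition or subtraction costs `1`; a scalar gate with `‖σ l‖ ≤ c` costs
`log₂ (max 1 ‖σ l‖)`; a scalar gate with `‖σ l‖ > c` is free. -/
noncomputable def cost (σ : ℂ →+* ℂ) (c : ℝ) : Gate → ℝ
  | Gate.add _ _ => 1
  | Gate.sub _ _ => 1
  | Gate.scal l _ => if ‖σ l‖ ≤ c then Real.logb 2 (max 1 ‖σ l‖) else 0

/-- Indicator (`1` or `0`) of a scalar gate whose multiplier satisfies `‖σ l‖ > c`. -/
noncomputable def big (σ : ℂ →+* ℂ) (c : ℝ) : Gate → ℝ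
  | Gate.add _ _ => 0
  | Gate.sub _ _ => 0
  | Gate.scal l _ => if ‖σ l‖ ≤ c then 0 else 1

end Vale.Agent.Lib.P344.H27
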