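import Mathlib

/-!
The discrete Fourier matrix with respect to a primitive root of unity.
-/

namespace Vale.Agent.Lib.P344.H27

open Matrix

/-- The matrix `(ζ^(j k))` for `0 ≤ j, k < n`. -/
noncomputable def dftMat (n : ℕ) (ζ : ℂ) : Matrix (Fin n) (Fin n) ℂ :=
  Matrix.of (fun j k : Fin n => ζ ^ ((j : ℕ) * (k : ℕ)))

theorem dftMat_apply (n : ℕ) (ζ : ℂ) (j k : Fin n) :
    dftMat n ζ j k = ζ ^ ((j : ℕ) * (k : ℕ)) := rfl

theorem norm_of_primitive {n : ℕ} {ζ : ℂ} (hζ : IsPrimitiveRoot ζ n) (hn : n ≠ 0) : ‖ζ‖ = 1 :=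
  Complex.norm_eq_one_of_pow_eq_one hζ.pow_eq_one hn

theorem norm_dftMat_apply {n : ℕ} {ζ : ℂ} (hζ : IsPrimitiveRoot ζ n) (hn : n ≠ 0)
    (j k : Fin n) : ‖dftMat n ζ j k‖ = 1 := by
  rw [dftMat_apply, norm_pow, norm_of_primitive hζ hn, one_pow]

theorem dftMat_mul_conjTranspose {n : ℕ} {ζ : ℂ} (hζ : IsPrimitiveRoot ζ n) (hn : n ≠ 0) :
    dftMat n ζ * (dftMat n ζ)ᴴ = (n : ℂ) • (1 : Matrix (Fin n) (Fin n) ℂ) := by
  have hnorm := norm_of_primitive hζ hn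
  have hconj : (starRingEnd ℂ) ζ = ζ⁻¹ := (Complex.inv_eq_conj hnorm).symm
  have hζ0 : ζ ≠ 0 := by
    intro h
    rw [h, norm_zero] at hnorm
    exact zero_ne_one hnorm
  ext j l
  rw [Matrix.mul_apply]
  simp only [Matrix.conjTranspose_apply, dftMat_apply, Matrix.smul_apply, smul_eq_mul,
    Matrix.one_apply, star_pow, Complex.star_def, hconj]
  have key : ∀ k : Fin n, ζ ^ ((j : ℕ) * (k : ℕ)) * ζ⁻¹ ^ ((l : ℕ) * (k : ℕ))
      = (ζ ^ (j : ℕ) * ζ⁻¹ ^ (l : ℕ)) ^ (k : ℕ) := by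
    intro k
    rw [mul_pow, ← pow_mul, ← pow_mul]
  rw [Finset.sum_congr rfl (fun k _ => key k)]
  rw [Fin.sum_univ_eq_sum_range (fun k => (ζ ^ (j : ℕ) * ζ⁻¹ ^ (l : ℕ)) ^ k) n]
  by_cases hjl : j = l
  · subst hjl
    have h1 : ζ ^ (j : ℕ) * ζ⁻¹ ^ (j : ℕ) = 1 := by
      rw [← mul_pow, mul_inv_cancel₀ hζ0, one_pow]
    rw [h1]
    simp
  · have h1 : ζ ^ (j : ℕ) * ζ⁻¹ ^ (l : ℕ) ≠ 1 := by
      intro h
      have h2 : ζ ^ (j : ℕ) = ζ ^ (l : ℕ) := by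
        have h3 : ζ ^ (j : ℕ) * ζ⁻¹ ^ (l : ℕ) * ζ ^ (l : ℕ) = ζ ^ (l : ℕ) := by rw [h, one_mul]
        rw [mul_assoc, ← mul_pow, inv_mul_cancel₀ hζ0, one_pow, mul_one] at h3
        exact h3
      exact hjl (Fin.ext (hζ.pow_inj j.isLt l.isLt h2))
    have h4 : (ζ ^ (j : ℕ) * ζ⁻¹ ^ (l : ℕ)) ^ n = 1 := by
      rw [mul_pow, ← pow_mul, ← pow_mul, mul_comm (j : ℕ) n, mul_comm (l : ℕ) n, pow_mul, pow_mul,
        inv_pow, hζ.pow_eq_one]
      simp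
    rw [geom_sum_eq h1, h4, sub_self, zero_div]
    simp [hjl]

theorem normSq_det_dftMat {n : ℕ} {ζ : ℂ} (hζ : IsPrimitiveRoot ζ n) (hn : n ≠ 0) :
    ‖(dftMat n ζ).det‖ ^ 2 = (n : ℝ) ^ n := by
  have h := congrArg Matrix.det (dftMat_mul_conjTranspose hζ hn)
  rw [Matrix.det_mul, Matrix.det_conjTranspose, Matrix.det_smul, Matrix.det_one, mul_one,
    Fintype.card_fin] at h
  have h2 : ((‖(dftMat n ζ).det‖ ^ 2 : ℝ) : ℂ) = (((n : ℝ) ^ n : ℝ) : ℂ) := by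
    push_cast
    rw [← Complex.mul_conj']
    exact h
  exact_mod_cast h2

theorem det_dftMat_ne_zero {n : ℕ} {ζ : ℂ} (hζ : IsPrimitiveRoot ζ n) (hn : n ≠ 0) :
    (dftMat n ζ).det ≠ 0 := by
  intro h
  have h1 := normSq_det_dftMat hζ hn
  rw [h, norm_zero] at h1
  have h2 : (0 : ℝ) < (n : ℝ) ^ n := by positivity
  rw [← h1] at h2
  simp at h2

/-- A crude bound: the modulus of a determinant is at most the product of the `ℓ¹` norms
of the rows. -/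
theorem norm_det_le_prod_row_sum {m : ℕ} (M : Matrix (Fin m) (Fin m) ℂ) :
    ‖M.det‖ ≤ ∏ i, ∑ j, ‖M i j‖ := by
  rw [← Matrix.det_transpose, Matrix.det_apply]
  calc ‖∑ σ : Equiv.Perm (Fin m), Equiv.Perm.sign σ • ∏ i, Mᵀ (σ i) i‖
      ≤ ∑ σ : Equiv.Perm (Fin m), ‖Equiv.Perm.sign σ • ∏ i, Mᵀ (σ i) i‖ := norm_sum_le _ _
    _ = ∑ σ : Equiv.Perm (Fin m), ∏ i, ‖M i (σ i)‖ := by
        refine Finset.sum_congr rfl (fun σ _ => ?_)
        rw [Units.smul_def, zsmul_eq_mul, norm_mul, norm_prod]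
        have : ‖((Equiv.Perm.sign σ : ℤˣ) : ℤ) • (1 : ℂ)‖ = 1 := by
          rcases Int.units_eq_one_or (Equiv.Perm.sign σ) with h | h <;> simp [h]
        simp only [zsmul_eq_mul, mul_one] at this
        rw [this, one_mul]
        rfl
    _ ≤ ∑ f : Fin m → Fin m, ∏ i, ‖M i (f i)‖ := by
        have hinj : Function.Injective (fun σ : Equiv.Perm (Fin m) => (σ : Fin m → Fin m)) :=
          DFunLike.coe_injective
        rw [← Finset.sum_image (s := Finset.univ) (f := fun f : Fin m → Fin m => ∏ i, ‖M i (f i)‖)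
          (g := fun σ : Equiv.Perm (Fin m) => (σ : Fin m → Fin m)) (fun a _ b _ h => hinj h)]
        exact Finset.sum_le_sum_of_subset_of_nonneg (Finset.subset_univ _)
          (fun f _ _ => Finset.prod_nonneg (fun i _ => norm_nonneg _))
    _ = ∏ i, ∑ j, ‖M i j‖ := by
        rw [Finset.prod_univ_sum]
        simp

end Vale.Agent.Lib.P344.H27
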