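import Mathlib

/-!
Determinant lemmas: a multilinear expansion of `det (A * B)` for rectangular factors,
block determinants with unit rows, and nonvanishing of a maximal minor.
-/

namespace Vale.Agent.Lib.P344.H27

open Matrix Finset

/-- Expansion of the determinant of a product of a `k × n` and an `n × k` matrix
along the columns of the second factor. -/
theorem det_mul_expand {k n : ℕ} (A : Matrix (Fin k) (Fin n) ℂ) (B : Matrix (Fin n) (Fin k) ℂ) :
    (A * B).det = ∑ p : Fin k → Fin n, (∏ i, B (p i) i) * (A.submatrix id p).det := by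
  have h1 : (A * B).det = ∑ p : Fin k → Fin n, ∑ σ : Equiv.Perm (Fin k),
      ((Equiv.Perm.sign σ : ℤ) : ℂ) * ∏ i, A (σ i) (p i) * B (p i) i := by
    simp only [det_apply', mul_apply, prod_univ_sum, mul_sum, Fintype.piFinset_univ]
    rw [Finset.sum_comm]
  rw [h1]
  refine Finset.sum_congr rfl (fun p _ => ?_)
  rw [det_apply', Finset.mul_sum]
  refine Finset.sum_congr rfl (fun σ _ => ?_)
  rw [Finset.prod_mul_distrib]
  simp only [submatrix_apply, id_eq]
  ring

theorem norm_det_mul_le {k n : ℕ} (A : Matrix (Fin k) (Fin n) ℂ) (B : Matrix (Fin n) (Fin k) ℂ)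
    (hB : ∀ l i, ‖B l i‖ ≤ 1) (M : ℝ)
    (hM : ∀ p : Fin k → Fin n, ‖(A.submatrix id p).det‖ ≤ M) :
    ‖(A * B).det‖ ≤ (n : ℝ) ^ k * M := by
  rw [det_mul_expand]
  calc ‖∑ p : Fin k → Fin n, (∏ i, B (p i) i) * (A.submatrix id p).det‖
      ≤ ∑ p : Fin k → Fin n, ‖(∏ i, B (p i) i) * (A.submatrix id p).det‖ := norm_sum_le _ _
    _ ≤ ∑ _p : Fin k → Fin n, M := by
        refine Finset.sum_le_sum (fun p _ => ?_)
        rw [norm_mul, norm_prod]
        have h1 : ∏ i, ‖B (p i) i‖ ≤ 1 :=
          Finset.prod_le_one (fun i _ => norm_nonneg _) (fun i _ => hB (p i) i)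
        calc (∏ i, ‖B (p i) i‖) * ‖(A.submatrix id p).det‖
            ≤ 1 * M := mul_le_mul h1 (hM p) (norm_nonneg _) zero_le_one
          _ = M := one_mul M
    _ = (n : ℝ) ^ k * M := by
        rw [Finset.sum_const, Finset.card_univ, Fintype.card_fun, Fintype.card_fin,
          Fintype.card_fin, nsmul_eq_mul]
        push_cast
        ring

/-- If `A` has a right inverse then some maximal minor of `A` does not vanish. -/
theorem exists_minor_ne_zero {k n : ℕ} (A : Matrix (Fin k) (Fin n) ℂ) (R : Matrix (Fin n) (Fin k) ℂ)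
    (h : A * R = 1) : ∃ p : Fin k → Fin n, (A.submatrix id p).det ≠ 0 := by
  by_contra hcon
  push Not at hcon
  have h1 : (A * R).det = 0 := by
    rw [det_mul_expand]
    refine Finset.sum_eq_zero (fun p _ => ?_)
    rw [hcon p, mul_zero]
  rw [h, det_one] at h1
  exact one_ne_zero h1

/-- Linearly independent rows give a right inverse. -/
theorem exists_right_inverse_of_linearIndependent {k n : ℕ} (A : Matrix (Fin k) (Fin n) ℂ)
    (h : LinearIndependent ℂ A.row) : ∃ R : Matrix (Fin n) (Fin k) ℂ, A * R = 1 := by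
  rw [← mulVec_surjective_iff_exists_right_inverse]
  have hr : A.rank = Fintype.card (Fin k) := h.rank_matrix
  have h2 : LinearMap.range A.mulVecLin = ⊤ := by
    apply Submodule.eq_top_of_finrank_eq
    rw [Module.finrank_pi, ← hr]
    rfl
  have h3 := LinearMap.range_eq_top.mp h2
  exact h3

/-- Two column reindexings of the same matrix give determinants of the same modulus. -/
theorem norm_det_submatrix_equiv {ι : Type} [Fintype ι] [DecidableEq ι] {n : ℕ}
    (R : Matrix ι (Fin n) ℂ) (e e' : ι ≃ Fin n) :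
    ‖(R.submatrix id e').det‖ = ‖(R.submatrix id e).det‖ := by
  have h : R.submatrix id e' = (R.submatrix id e).submatrix id (e'.trans e.symm) := by
    ext i j
    simp
  rw [h, det_permute', norm_mul]
  have h2 : ‖(((Equiv.Perm.sign (e'.trans e.symm) : ℤˣ) : ℤ) : ℂ)‖ = 1 := by
    rcases Int.units_eq_one_or (Equiv.Perm.sign (e'.trans e.symm)) with h | h <;> simp [h]
  rw [h2, one_mul]

/-- Block determinant: unit rows on top. -/
theorem det_unitRows {q k n : ℕ} (e : Fin q ⊕ Fin k ≃ Fin n) (M : Fin k → (Fin n → ℂ)) :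
    ((Matrix.of (Sum.elim (fun a : Fin q => (Pi.single (e (Sum.inl a)) 1 : Fin n → ℂ)) M)).submatrix
      id e).det = ((Matrix.of M).submatrix id (fun i => e (Sum.inr i))).det := by
  have h : (Matrix.of (Sum.elim (fun a : Fin q => (Pi.single (e (Sum.inl a)) 1 : Fin n → ℂ)) M)).submatrix
      id e = Matrix.fromBlocks (1 : Matrix (Fin q) (Fin q) ℂ) 0
        ((Matrix.of M).submatrix id (fun a => e (Sum.inl a)))
        ((Matrix.of M).submatrix id (fun i => e (Sum.inr i))) := by
    ext i j
    rcases i with a | i <;> rcases j with b | j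
    · simp [Matrix.one_apply, Pi.single_apply, eq_comm]
    · simp
    · simp
    · simp
  rw [h, det_fromBlocks_zero₁₂, det_one, one_mul]

/-- Extension of an injection on the left summand to an equivalence. -/
theorem exists_equiv_inl {q k n : ℕ} (hqk : q + k = n) (J : Fin q → Fin n)
    (hJ : Function.Injective J) : ∃ e : Fin q ⊕ Fin k ≃ Fin n, ∀ a, e (Sum.inl a) = J a := by
  classical
  have hcard : Fintype.card (↥(Set.range J)ᶜ : Type) = k := by
    rw [Fintype.card_compl_set, Set.card_range_of_injective hJ, Fintype.card_fin, Fintype.card_fin]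
    omega
  let e2 : Fin k ≃ (↥(Set.range J)ᶜ : Type) := (Fintype.equivFinOfCardEq hcard).symm
  let e1 : Fin q ≃ ↥(Set.range J) := Equiv.ofInjective J hJ
  refine ⟨(Equiv.sumCongr e1 e2).trans (Equiv.Set.sumCompl (Set.range J)), ?_⟩
  intro a
  simp [e1]

/-- Extension of an injection on the right summand to an equivalence. -/
theorem exists_equiv_inr {q k n : ℕ} (hqk : q + k = n) (J : Fin k → Fin n)
    (hJ : Function.Injective J) : ∃ e : Fin q ⊕ Fin k ≃ Fin n, ∀ i, e (Sum.inr i) = J i := by
  obtain ⟨e, he⟩ := exists_equiv_inl (q := k) (k := q) (by omega) J hJ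
  exact ⟨(Equiv.sumComm _ _).trans e, fun i => by simpa using he i⟩

end Vale.Agent.Lib.P344.H27
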