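import Vale.Agent.Lib.P344.H27.Stack

/-!
The weighted Morgenstern bound with unrestricted scalar gates and conjugation.
-/

namespace Vale.Agent.Lib.P344.H27

open Matrix

/-- Apply a ring endomorphism of `ℂ` to the multipliers of a circuit. -/
def Gate.conj (σ : ℂ →+* ℂ) : Gate → Gate
  | Gate.add i j => Gate.add i j
  | Gate.sub i j => Gate.sub i j
  | Gate.scal c i => Gate.scal (σ c) i

theorem getD_map_conj {n : ℕ} (σ : ℂ →+* ℂ) (vs : List (Fin n → ℂ)) (i : ℕ) :
    (vs.map (fun v : Fin n → ℂ => fun k => σ (v k))).getD i 0 = fun k => σ (vs.getD i 0 k) := by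
  have h := List.getD_map (f := fun v : Fin n → ℂ => fun k => σ (v k)) (l := vs) (n := i) (d := 0)
  rw [← h]
  congr 1
  funext k
  simp

theorem val_conj {n : ℕ} (σ : ℂ →+* ℂ) (vs : List (Fin n → ℂ)) (g : Gate) :
    (Gate.conj σ g).val (vs.map (fun v : Fin n → ℂ => fun k => σ (v k)))
      = fun k => σ (g.val vs k) := by
  cases g with
  | add i j =>
    simp only [Gate.conj, Gate.val, getD_map_conj]
    funext k
    simp
  | sub i j =>
    simp only [Gate.conj, Gate.val, getD_map_conj]
    funext k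
    simp
  | scal c i =>
    simp only [Gate.conj, Gate.val, getD_map_conj]
    funext k
    simp

theorem values_conj (σ : ℂ →+* ℂ) (n : ℕ) (gs : List Gate) :
    values n (gs.map (Gate.conj σ))
      = (values n gs).map (fun v : Fin n → ℂ => fun k => σ (v k)) := by
  induction gs using List.reverseRecOn with
  | nil =>
    simp only [List.map_nil, values_nil, inputs, List.map_ofFn]
    congr 1
    funext j k
    simp only [Function.comp_apply, Pi.single_apply]
    split_ifs <;> simp
  | append_singleton gs g ih =>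
    rw [List.map_append, List.map_singleton, values_snoc, values_snoc, ih, List.map_append,
      List.map_singleton, val_conj]

/-- The set of outputs of the scalar gates of `gs` whose multiplier has norm `> c`. -/
def helpSet (c : ℝ) (n : ℕ) (gs : List Gate) : Set (Fin n → ℂ) :=
  {w | ∃ (gs₁ : List Gate) (g : Gate), (gs₁ ++ [g]) <+: gs ∧ IsHelp c g ∧ w = g.val (values n gs₁)}

/-- `1` for a scalar gate with multiplier of norm `> c`, else `0`. -/
noncomputable def mbig (c : ℝ) : Gate → ℝ
  | Gate.add _ _ => 0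
  | Gate.sub _ _ => 0
  | Gate.scal l _ => if ‖l‖ ≤ c then 0 else 1

theorem mbig_nonneg (c : ℝ) (g : Gate) : 0 ≤ mbig c g := by
  cases g with
  | add i j => simp [mbig]
  | sub i j => simp [mbig]
  | scal l i =>
    simp only [mbig]
    split_ifs <;> norm_num

theorem mbig_of_isHelp (c : ℝ) (g : Gate) (h : IsHelp c g) : mbig c g = 1 := by
  cases g with
  | add i j => exact absurd h (by simp [IsHelp])
  | sub i j => exact absurd h (by simp [IsHelp])
  | scal l i =>
    simp only [IsHelp] at h
    simp [mbig, h]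

theorem helpSet_finset (c : ℝ) (n : ℕ) (gs : List Gate) :
    ∃ t : Finset (Fin n → ℂ), helpSet c n gs ⊆ ↑t ∧ (t.card : ℝ) ≤ (gs.map (mbig c)).sum := by
  classical
  induction gs using List.reverseRecOn with
  | nil =>
    refine ⟨∅, ?_, by simp⟩
    intro w hw
    obtain ⟨gs₁, g, h1, _, _⟩ := hw
    have := h1.length_le
    simp at this
  | append_singleton gs g ih =>
    obtain ⟨t, ht, hcard⟩ := ih
    by_cases hg : IsHelp c g
    · refine ⟨insert (g.val (values n gs)) t, ?_, ?_⟩
      · intro w hw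
        obtain ⟨gs₁, g₁, h1, h2, h3⟩ := hw
        rw [List.prefix_concat_iff] at h1
        rcases h1 with h1 | h1
        · have h4 := List.append_inj' h1 rfl
          obtain ⟨h5, h6⟩ := h4
          simp only [List.cons.injEq, and_true] at h6
          subst h5
          subst h6
          rw [h3]
          simp
        · have : w ∈ (↑t : Set (Fin n → ℂ)) := ht ⟨gs₁, g₁, h1, h2, h3⟩
          simp only [Finset.coe_insert, Set.mem_insert_iff]
          exact Or.inr this
      · rw [List.map_append, List.sum_append, List.map_singleton, List.sum_singleton,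
          mbig_of_isHelp c g hg]
        have h7 := Finset.card_insert_le (g.val (values n gs)) t
        have h8 : ((insert (g.val (values n gs)) t).card : ℝ) ≤ (t.card : ℝ) + 1 := by
          exact_mod_cast h7
        linarith
    · refine ⟨t, ?_, ?_⟩
      · intro w hw
        obtain ⟨gs₁, g₁, h1, h2, h3⟩ := hw
        rw [List.prefix_concat_iff] at h1
        rcases h1 with h1 | h1
        · have h4 := List.append_inj' h1 rfl
          obtain ⟨h5, h6⟩ := h4
          simp only [List.cons.injEq, and_true] at h6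
          subst h6
          exact absurd h2 hg
        · exact ht ⟨gs₁, g₁, h1, h2, h3⟩
      · rw [List.map_append, List.sum_append, List.map_singleton, List.sum_singleton]
        have := mbig_nonneg c g
        linarith

theorem finrank_helpSet_le (c : ℝ) (n : ℕ) (gs : List Gate) :
    (Module.finrank ℂ (Submodule.span ℂ (helpSet c n gs)) : ℝ) ≤ (gs.map (mbig c)).sum := by
  obtain ⟨t, ht, hcard⟩ := helpSet_finset c n gs
  have h1 : Module.finrank ℂ (Submodule.span ℂ (helpSet c n gs))
      ≤ Module.finrank ℂ (Submodule.span ℂ (↑t : Set (Fin n → ℂ))) :=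
    Submodule.finrank_mono (Submodule.span_mono ht)
  have h2 : Module.finrank ℂ (Submodule.span ℂ (↑t : Set (Fin n → ℂ))) ≤ t.card :=
    finrank_span_finset_le_card t
  have h3 : (Module.finrank ℂ (Submodule.span ℂ (helpSet c n gs)) : ℝ) ≤ (t.card : ℝ) := by
    exact_mod_cast le_trans h1 h2
  linarith

/-- The core potential estimate for a circuit computing the Fourier matrix of a primitive root. -/
theorem core {n : ℕ} (hn : n ≠ 0) {ζ : ℂ} (hζ : IsPrimitiveRoot ζ n) (c : ℝ) (gs : List Gate)
    (hc : ∀ j : Fin n, (fun k : Fin n => ζ ^ ((j : ℕ) * (k : ℕ))) ∈ values n gs) :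
    ∃ k : ℕ, (k : ℝ) ≤ (gs.map (mbig c)).sum ∧
      ‖(dftMat n ζ).det‖ ≤ (n : ℝ) ^ k * (gs.map (mcost c)).prod := by
  classical
  obtain ⟨k, hk⟩ : ∃ k : ℕ, k = Module.finrank ℂ (Submodule.span ℂ (helpSet c n gs)) := ⟨_, rfl⟩
  have hkfin := finrank_helpSet_le c n gs
  rw [← hk] at hkfin
  let b : Module.Basis (Fin k) ℂ (Submodule.span ℂ (helpSet c n gs)) :=
    (Module.finBasis ℂ (Submodule.span ℂ (helpSet c n gs))).reindex (finCongr hk.symm)
  let z : Fin k → (Fin n → ℂ) := fun i => ((b i : Submodule.span ℂ (helpSet c n gs)) : Fin n → ℂ)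
  have hzli : LinearIndependent ℂ z :=
    b.linearIndependent.map' (Submodule.span ℂ (helpSet c n gs)).subtype (Submodule.ker_subtype _)
  have hzspan : Submodule.span ℂ (Set.range z) = Submodule.span ℂ (helpSet c n gs) := by
    have h1 : Set.range z = (Submodule.span ℂ (helpSet c n gs)).subtype '' (Set.range b) := by
      rw [← Set.range_comp]
      rfl
    rw [h1, Submodule.span_image, b.span_eq, Submodule.map_subtype_top]
  have hkn : k ≤ n := by
    have h1 := Submodule.finrank_le (Submodule.span ℂ (helpSet c n gs))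
    rw [Module.finrank_fin_fun] at h1
    omega
  obtain ⟨q, hq⟩ : ∃ q, q + k = n := ⟨n - k, by omega⟩
  let e₀ : Fin q ⊕ Fin k ≃ Fin n := finSumFinEquiv.trans (finCongr hq)
  have hFdet : (dftMat n ζ).det ≠ 0 := det_dftMat_ne_zero hζ hn
  have hFunit : IsUnit (dftMat n ζ).det := isUnit_iff_ne_zero.mpr hFdet
  obtain ⟨Y, hYdef⟩ : ∃ Y : Matrix (Fin k) (Fin n) ℂ, Y = Matrix.of z * (dftMat n ζ)⁻¹ := ⟨_, rfl⟩
  have hY : Y * dftMat n ζ = Matrix.of z := by
    rw [hYdef, Matrix.mul_assoc, Matrix.nonsing_inv_mul _ hFunit, Matrix.mul_one]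
  obtain ⟨R, hR⟩ := exists_right_inverse_of_linearIndependent (Matrix.of z) hzli
  have hYR : Y * (dftMat n ζ * R) = 1 := by rw [← Matrix.mul_assoc, hY, hR]
  obtain ⟨p₁, hp₁⟩ := exists_minor_ne_zero Y (dftMat n ζ * R) hYR
  have : Nonempty (Fin k → Fin n) := ⟨p₁⟩
  obtain ⟨p₀, hp₀⟩ := Finite.exists_max (fun p : Fin k → Fin n => ‖(Y.submatrix id p).det‖)
  have hMpos : 0 < ‖(Y.submatrix id p₀).det‖ := lt_of_lt_of_le (norm_pos_iff.mpr hp₁) (hp₀ p₁)
  have hp₀inj : Function.Injective p₀ := by
    intro i j hij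
    by_contra hne
    have h0 : (Y.submatrix id p₀).det = 0 :=
      Matrix.det_zero_of_column_eq hne (by
        intro r
        simp [hij])
    rw [h0, norm_zero] at hMpos
    exact lt_irrefl _ hMpos
  have hbase : ∀ p : Fin k → Fin n,
      ‖((Matrix.of z).submatrix id p).det‖ ≤ (n : ℝ) ^ k * ‖(Y.submatrix id p₀).det‖ := by
    intro p
    have h1 : (Matrix.of z).submatrix id p = Y * (dftMat n ζ).submatrix id p := by
      rw [← hY]
      ext i j
      simp [Matrix.mul_apply]
    rw [h1]
    exact norm_det_mul_le Y ((dftMat n ζ).submatrix id p)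
      (fun l i => le_of_eq (norm_dftMat_apply hζ hn _ _)) _ hp₀
  have hB : Bdd (fun f : Fin q → (Fin n → ℂ) => (stack e₀ z f).det) (inputs n)
      ((n : ℝ) ^ k * ‖(Y.submatrix id p₀).det‖) :=
    base_bound hq e₀ z _ (by positivity) hbase
  have hpot := bdd_values (isAlt_stack e₀ z) c hB gs (by
    intro gs₁ g h1 h2 f a h3
    apply stack_det_eq_zero_of_mem_span e₀ z f a
    rw [hzspan]
    exact Submodule.subset_span ⟨gs₁, g, h1, h2, h3⟩)
  obtain ⟨I, hI⟩ := end_identity hq e₀ z (dftMat n ζ) Y hY p₀ hp₀inj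
  have hfin := hpot (fun a => dftMat n ζ (I a)) (fun a => Or.inl (hc (I a)))
  change ‖(stack e₀ z (fun a => dftMat n ζ (I a))).det‖ ≤ _ at hfin
  rw [hI] at hfin
  refine ⟨k, hkfin, ?_⟩
  have h5 : ‖(Y.submatrix id p₀).det‖ * ‖(dftMat n ζ).det‖
      ≤ ‖(Y.submatrix id p₀).det‖ * ((n : ℝ) ^ k * (gs.map (mcost c)).prod) := by
    calc ‖(Y.submatrix id p₀).det‖ * ‖(dftMat n ζ).det‖
        ≤ (n : ℝ) ^ k * ‖(Y.submatrix id p₀).det‖ * (gs.map (mcost c)).prod := hfin
      _ = ‖(Y.submatrix id p₀).det‖ * ((n : ℝ) ^ k * (gs.map (mcost c)).prod) := by ring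
  exact le_of_mul_le_mul_left h5 hMpos

theorem mcost_pos (c : ℝ) (g : Gate) : 0 < mcost c g :=
  lt_of_lt_of_le zero_lt_one (one_le_mcost c g)

theorem logb_prod_mcost (c : ℝ) (gs : List Gate) :
    Real.logb 2 (gs.map (mcost c)).prod = (gs.map (fun g => Real.logb 2 (mcost c g))).sum := by
  induction gs with
  | nil => simp
  | cons g gs ih =>
    have h1 : (gs.map (mcost c)).prod ≠ 0 := by
      apply ne_of_gt
      apply List.prod_pos
      intro x hx
      obtain ⟨g', _, rfl⟩ := List.mem_map.mp hx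
      exact mcost_pos c g'
    rw [List.map_cons, List.prod_cons, List.map_cons, List.sum_cons,
      Real.logb_mul (ne_of_gt (mcost_pos c g)) h1, ih]

theorem prod_mcost_pos (c : ℝ) (gs : List Gate) : 0 < (gs.map (mcost c)).prod := by
  apply List.prod_pos
  intro x hx
  obtain ⟨g', _, rfl⟩ := List.mem_map.mp hx
  exact mcost_pos c g'

theorem logb_mcost_conj (σ : ℂ →+* ℂ) (c : ℝ) (g : Gate) :
    Real.logb 2 (mcost c (Gate.conj σ g)) = cost σ c g := by
  cases g with
  | add i j => simp [mcost, Gate.conj, cost]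
  | sub i j => simp [mcost, Gate.conj, cost]
  | scal l i =>
    simp only [mcost, Gate.conj, cost]
    split_ifs <;> simp

theorem mbig_conj (σ : ℂ →+* ℂ) (c : ℝ) (g : Gate) : mbig c (Gate.conj σ g) = big σ c g := by
  cases g with
  | add i j => simp [mbig, Gate.conj, big]
  | sub i j => simp [mbig, Gate.conj, big]
  | scal l i => simp only [mbig, Gate.conj, big]

/-- Weighted Morgenstern bound with unrestricted scalar gates, for every ring endomorphism
of `ℂ` applied to the multipliers. -/
theorem main_bound (n : ℕ) (hn : n ≠ 0) (gs : List Gate) (h : ComputesDFT n gs)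
    (σ : ℂ →+* ℂ) (c : ℝ) :
    ((n : ℝ) / 2 - (gs.map (big σ c)).sum) * Real.logb 2 n ≤ (gs.map (cost σ c)).sum := by
  have hζ₀ := Complex.isPrimitiveRoot_exp n hn
  have hζ : IsPrimitiveRoot (σ (Complex.exp (2 * Real.pi * Complex.I / n))) n :=
    hζ₀.map_of_injective σ.injective
  have hc : ∀ j : Fin n, (fun k : Fin n =>
      σ (Complex.exp (2 * Real.pi * Complex.I / n)) ^ ((j : ℕ) * (k : ℕ)))
        ∈ values n (gs.map (Gate.conj σ)) := by
    intro j
    rw [values_conj]
    have h1 := List.mem_map_of_mem (f := fun v : Fin n → ℂ => fun k => σ (v k)) (h j)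
    simp only [map_pow] at h1
    exact h1
  obtain ⟨k, hk, hdet⟩ := core hn hζ c (gs.map (Gate.conj σ)) hc
  have hsq := normSq_det_dftMat hζ hn
  have hP := prod_mcost_pos c (gs.map (Gate.conj σ))
  have hn1 : (1 : ℝ) ≤ n := by exact_mod_cast Nat.one_le_iff_ne_zero.mpr hn
  have hn0 : (0 : ℝ) < n := by linarith
  have hlog0 : 0 ≤ Real.logb 2 n := Real.logb_nonneg (by norm_num) hn1
  have h2 : (n : ℝ) ^ n ≤ ((n : ℝ) ^ k * ((gs.map (Gate.conj σ)).map (mcost c)).prod) ^ 2 := by
    rw [← hsq]
    exact pow_le_pow_left₀ (norm_nonneg _) hdet 2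
  have h3 := Real.logb_le_logb_of_le (b := 2) (by norm_num) (by positivity) h2
  rw [Real.logb_pow, Real.logb_pow, Real.logb_mul (by positivity) (ne_of_gt hP), Real.logb_pow,
    logb_prod_mcost, List.map_map] at h3
  have h4 : ((gs.map (Gate.conj σ)).map (mbig c)).sum = (gs.map (big σ c)).sum := by
    rw [List.map_map]
    congr 1
    apply List.map_congr_left
    intro g _
    exact mbig_conj σ c g
  have h5 : (gs.map ((fun g => Real.logb 2 (mcost c g)) ∘ Gate.conj σ)).sum
      = (gs.map (cost σ c)).sum := by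
    congr 1
    apply List.map_congr_left
    intro g _
    exact logb_mcost_conj σ c g
  rw [h5] at h3
  rw [h4] at hk
  push_cast at h3
  nlinarith [mul_le_mul_of_nonneg_right hk hlog0]

end Vale.Agent.Lib.P344.H27
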