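import Vale.Agent.Lib.P344.H27.Circuit
import Vale.Agent.Lib.P344.H27.Fourier
import Vale.Agent.Lib.P344.H27.LinAlg

/-!
The potential function: determinant of chosen forms stacked on top of a fixed family `z`.
-/

namespace Vale.Agent.Lib.P344.H27

open Matrix

section Stack

variable {q k n : ℕ}

/-- The square matrix with rows `f` on top of rows `z`, columns reindexed by `e`. -/
noncomputable def stack (e : Fin q ⊕ Fin k ≃ Fin n) (z : Fin k → (Fin n → ℂ))
    (f : Fin q → (Fin n → ℂ)) : Matrix (Fin q ⊕ Fin k) (Fin q ⊕ Fin k) ℂ :=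
  (Matrix.of (Sum.elim f z)).submatrix id e

theorem stack_inl (e : Fin q ⊕ Fin k ≃ Fin n) (z : Fin k → (Fin n → ℂ))
    (f : Fin q → (Fin n → ℂ)) (a : Fin q) (j : Fin q ⊕ Fin k) :
    stack e z f (Sum.inl a) j = f a (e j) := rfl

theorem stack_inr (e : Fin q ⊕ Fin k ≃ Fin n) (z : Fin k → (Fin n → ℂ))
    (f : Fin q → (Fin n → ℂ)) (i : Fin k) (j : Fin q ⊕ Fin k) :
    stack e z f (Sum.inr i) j = z i (e j) := rfl

theorem stack_update (e : Fin q ⊕ Fin k ≃ Fin n) (z : Fin k → (Fin n → ℂ))
    (f : Fin q → (Fin n → ℂ)) (a : Fin q) (x : Fin n → ℂ) :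
    stack e z (Function.update f a x)
      = (stack e z f).updateRow (Sum.inl a) (fun j => x (e j)) := by
  ext i j
  rcases i with b | i
  · by_cases h : b = a
    · subst h
      rw [Matrix.updateRow_self, stack_inl, Function.update_self]
    · have h' : (Sum.inl b : Fin q ⊕ Fin k) ≠ Sum.inl a := fun hh => h (Sum.inl.inj hh)
      rw [Matrix.updateRow_ne h', stack_inl, stack_inl, Function.update_of_ne h]
  · rw [Matrix.updateRow_ne (by simp), stack_inr, stack_inr]

theorem isAlt_stack (e : Fin q ⊕ Fin k ≃ Fin n) (z : Fin k → (Fin n → ℂ)) :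
    IsAlt (fun f : Fin q → (Fin n → ℂ) => (stack e z f).det) where
  add := by
    intro g a u v
    simp only [stack_update]
    have h : (fun j => (u + v) (e j)) = (fun j => u (e j)) + (fun j => v (e j)) := rfl
    rw [h, Matrix.det_updateRow_add]
  smul := by
    intro g a c u
    simp only [stack_update]
    have h : (fun j => (c • u) (e j)) = c • (fun j => u (e j)) := rfl
    rw [h, Matrix.det_updateRow_smul]
  alt := by
    intro g a b hab h
    apply Matrix.det_zero_of_row_eq (i := Sum.inl a) (j := Sum.inl b)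
    · exact fun hh => hab (Sum.inl.inj hh)
    · ext j
      rw [stack_inl, stack_inl, h]

theorem stack_det_eq_zero_of_mem_span (e : Fin q ⊕ Fin k ≃ Fin n) (z : Fin k → (Fin n → ℂ))
    (f : Fin q → (Fin n → ℂ)) (a : Fin q) (h : f a ∈ Submodule.span ℂ (Set.range z)) :
    (stack e z f).det = 0 := by
  obtain ⟨c, hc⟩ := (Submodule.mem_span_range_iff_exists_fun ℂ).mp h
  have h1 : stack e z f = (stack e z f).updateRow (Sum.inl a)
      (∑ r : Fin q ⊕ Fin k, (Sum.elim (fun _ => (0 : ℂ)) c r) • (stack e z f) r) := by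
    ext i j
    by_cases hi : i = Sum.inl a
    · subst hi
      rw [Matrix.updateRow_self, Fintype.sum_sum_type]
      simp only [Sum.elim_inl, zero_smul, Finset.sum_const_zero, Sum.elim_inr, zero_add]
      rw [stack_inl, ← hc]
      simp only [Finset.sum_apply, Pi.smul_apply, smul_eq_mul]
      refine Finset.sum_congr rfl (fun i _ => ?_)
      rw [stack_inr]
    · rw [Matrix.updateRow_ne hi]
  rw [h1, Matrix.det_updateRow_sum]
  simp

theorem base_bound (hqk : q + k = n) (e₀ : Fin q ⊕ Fin k ≃ Fin n) (z : Fin k → (Fin n → ℂ))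
    (M : ℝ) (hM0 : 0 ≤ M)
    (hM : ∀ p : Fin k → Fin n, ‖((Matrix.of z).submatrix id p).det‖ ≤ M) :
    Bdd (fun f : Fin q → (Fin n → ℂ) => (stack e₀ z f).det) (inputs n) M := by
  intro f hf
  have hD := isAlt_stack e₀ z
  change ‖(stack e₀ z f).det‖ ≤ M
  by_cases h0 : ∃ a, f a = 0
  · obtain ⟨a, ha⟩ := h0
    have h00 : (stack e₀ z f).det = 0 := hD.zero f a ha
    rw [h00, norm_zero]
    exact hM0
  · push Not at h0
    have h1 : ∀ a, ∃ j : Fin n, f a = Pi.single j 1 := by
      intro a
      rcases hf a with h | h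
      · simp only [inputs, List.mem_ofFn] at h
        obtain ⟨j, hj⟩ := h
        exact ⟨j, hj.symm⟩
      · exact absurd h (h0 a)
    choose J hJ using h1
    by_cases hinj : Function.Injective J
    · obtain ⟨e, he⟩ := exists_equiv_inl hqk J hinj
      have h2 : ‖(stack e₀ z f).det‖ = ‖(stack e z f).det‖ :=
        norm_det_submatrix_equiv (Matrix.of (Sum.elim f z)) e e₀
      have h3 : f = fun a : Fin q => (Pi.single (e (Sum.inl a)) 1 : Fin n → ℂ) := by
        funext a
        rw [hJ a, he a]
      have h4 : (stack e z f).det = ((Matrix.of z).submatrix id (fun i => e (Sum.inr i))).det := by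
        rw [h3]
        exact det_unitRows e z
      rw [h2, h4]
      exact hM _
    · have h5 : ∃ a b, a ≠ b ∧ J a = J b := by
        by_contra hcon
        push Not at hcon
        exact hinj (fun a b hab => by
          by_contra hne
          exact hcon a b hne hab)
      obtain ⟨a, b, hab, hJab⟩ := h5
      have h00 : (stack e₀ z f).det = 0 := hD.alt f a b hab (by rw [hJ a, hJ b, hJab])
      rw [h00, norm_zero]
      exact hM0

theorem end_identity (hqk : q + k = n) (e₀ : Fin q ⊕ Fin k ≃ Fin n) (z : Fin k → (Fin n → ℂ))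
    (F : Matrix (Fin n) (Fin n) ℂ) (Y : Matrix (Fin k) (Fin n) ℂ) (hY : Y * F = Matrix.of z)
    (p : Fin k → Fin n) (hp : Function.Injective p) :
    ∃ I : Fin q → Fin n,
      ‖(stack e₀ z (fun a => F (I a))).det‖ = ‖(Y.submatrix id p).det‖ * ‖F.det‖ := by
  obtain ⟨e, he⟩ := exists_equiv_inr (q := q) hqk p hp
  refine ⟨fun a => e (Sum.inl a), ?_⟩
  have h1 : Matrix.of (Sum.elim (fun a : Fin q => F (e (Sum.inl a))) z)
      = Matrix.of (Sum.elim (fun a : Fin q => (Pi.single (e (Sum.inl a)) 1 : Fin n → ℂ))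
          (fun i => Y i)) * F := by
    ext i j
    rcases i with a | i
    · simp [Matrix.mul_apply, Pi.single_apply]
    · have := congrFun (congrFun hY i) j
      simp only [Matrix.of_apply] at this
      simp only [Matrix.of_apply, Sum.elim_inr, Matrix.mul_apply]
      rw [← this, Matrix.mul_apply]
  have h2 : stack e₀ z (fun a => F (e (Sum.inl a)))
      = (Matrix.of (Sum.elim (fun a : Fin q => (Pi.single (e (Sum.inl a)) 1 : Fin n → ℂ))
          (fun i => Y i))).submatrix id e₀ * F.submatrix e₀ e₀ := by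
    rw [stack, h1, Matrix.submatrix_mul_equiv]
  rw [h2, Matrix.det_mul, Matrix.det_submatrix_equiv_self, norm_mul]
  congr 1
  rw [norm_det_submatrix_equiv _ e e₀, det_unitRows e (fun i => Y i)]
  have h3 : (fun i => e (Sum.inr i)) = p := funext he
  rw [h3]
  rfl

end Stack

end Vale.Agent.Lib.P344.H27
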